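import Vale.Agent.P157.Full.Concave.Order

/-!
Raising one coordinate of a field path lowers the overlaps conjugate to the other coordinates.
-/

noncomputable section

open MeasureTheory ProbabilityTheory Filter Topology

namespace Vale.Agent.P157.Parisi.Full.Concave

/-- Raise coordinate `j` by `e`, seen from a base `b` through an exponent `μ`. -/
lemma raise : ∀ {r : ℕ} {m : Fin r → ℝ}, (∀ i, 0 < m i) → (∀ i, m i ≤ 1) → Monotone m →
    ∀ (ρ : Fin (r + 1) → ℝ) (j : Fin (r + 1)) (e : ℝ), Monotone ρ → 0 ≤ e →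
    Monotone (Function.update ρ j (ρ j + e)) → ∀ μ b : ℝ, 0 ≤ μ → μ ≤ 1 → (∀ i, μ ≤ m i) →
    b ≤ ρ 0 →
    Prec (layer μ (Function.update ρ j (ρ j + e) 0 - b)
          (level m (Function.update ρ j (ρ j + e)) logCosh 0))
        (layer μ (ρ 0 - b) (level m ρ logCosh 0)) ∧
      ∀ p, p ≠ j → ∀ x,
        tilt μ (Function.update ρ j (ρ j + e) 0 - b)
            (level m (Function.update ρ j (ρ j + e)) logCosh 0)
            (down m (Function.update ρ j (ρ j + e)) logCosh p
              (magSq m (Function.update ρ j (ρ j + e)) p)) x ≤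
          tilt μ (ρ 0 - b) (level m ρ logCosh 0) (down m ρ logCosh p (magSq m ρ p)) x := by
  intro r
  induction r with
  | zero =>
    intro m _ _ _ ρ j e hρ he hρ' μ b hμ hμ1 _ hb
    obtain rfl : j = 0 := Subsingleton.elim (α := Fin 1) _ _
    refine ⟨?_, fun p hp => absurd (Subsingleton.elim (α := Fin 1) p 0) hp⟩
    rw [Function.update_self]
    show Prec (layer μ (ρ 0 + e - b) logCosh) (layer μ (ρ 0 - b) logCosh)
    rw [show ρ 0 + e - b = (ρ 0 - b) + e by ring,
      layer_add hμ hμ1 good_logCosh.lip (sub_nonneg.2 hb) he]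
    exact prec_layer le_rfl hμ (good_layer' hμ good_logCosh) good_logCosh
      (prec_layer_logCosh hμ hμ1 e)
  | succ r ih =>
    intro m hm hm1 hmono ρ j e hρ he hρ' μ b hμ hμ1 hμm hb
    set ρ' := Function.update ρ j (ρ j + e) with hρ'def
    have hmt : ∀ i, 0 < Fin.tail m i := fun i => hm i.succ
    set L1 := level (Fin.tail m) (Fin.tail ρ) logCosh 0 with hL1def
    have gL1 : Good L1 := good_level hmt _ 0
    have hδ : 0 ≤ ρ 0 - b := sub_nonneg.2 hb
    cases j using Fin.cases with
    | zero =>
      have ht : Fin.tail ρ' = Fin.tail ρ := Fin.tail_update_zero ρ _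
      have h0 : ρ' 0 = ρ 0 + e := Function.update_self ..
      have h1 : ρ' 1 = ρ 1 := Function.update_of_ne (by simp) ..
      have he2 : 0 ≤ ρ 1 - ρ 0 - e := by
        have := hρ' (Fin.zero_le (1 : Fin (r + 2)))
        rw [h0, h1] at this
        linarith
      set G := layer (m 0) (ρ 1 - ρ 0 - e) L1 with hGdef
      have gG : Good G := good_layer (hm 0) gL1
      have eL' : level m ρ' logCosh 0 = G := by
        rw [level_cons_zero, ht, h0, h1, hGdef, show ρ 1 - (ρ 0 + e) = ρ 1 - ρ 0 - e by ring]
      have eL : level m ρ logCosh 0 = layer (m 0) e G := by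
        rw [level_cons_zero, hGdef, ← layer_add (hm 0).le (hm1 0) gL1.lip he he2,
          show e + (ρ 1 - ρ 0 - e) = ρ 1 - ρ 0 by ring]
      rw [eL', eL, h0, show ρ 0 + e - b = (ρ 0 - b) + e by ring]
      have hP : Prec (layer μ e G) (layer (m 0) e G) :=
        prec_layer (hμm 0) hμ gG gG (Prec.refl _)
      refine ⟨?_, fun p hp x => ?_⟩
      · rw [layer_add hμ hμ1 gG.lip hδ he]
        exact prec_layer le_rfl hμ (good_layer' hμ gG) (good_layer (hm 0) gG) hP
      · cases p using Fin.cases with
        | zero => exact absurd rfl hp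
        | succ p =>
          have eu : magSq m ρ' p.succ = magSq m ρ p.succ := by
            unfold magSq; rw [level_cons_succ, level_cons_succ, ht]
          rw [eu, down_cons_succ, down_cons_succ, ht, h0, h1, ← hL1def,
            show ρ 1 - (ρ 0 + e) = ρ 1 - ρ 0 - e by ring]
          set k := down (Fin.tail m) (Fin.tail ρ) logCosh p (magSq m ρ p.succ) with hk
          have ek : EvInc k := evInc_down hmt _ p (evInc_magSq hm ρ p.succ)
          set k1 := tilt (m 0) (ρ 1 - ρ 0 - e) L1 k with hk1
          have ek1 : EvInc k1 := evInc_tilt (hm 0).le gL1 ek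
          have eold : tilt (m 0) (ρ 1 - ρ 0) L1 k = tilt (m 0) e G k1 := funext fun y => by
            rw [hGdef, hk1, ← tilt_add (hm 0).le (hm1 0) gL1.lip ek.b1 he he2,
              show e + (ρ 1 - ρ 0 - e) = ρ 1 - ρ 0 by ring]
          rw [eold, tilt_add hμ hμ1 gG.lip ek1.b1 hδ he]
          exact tilt_le_comp le_rfl hμ (good_layer' hμ gG) (good_layer (hm 0) gG) hP
            (evInc_tilt hμ gG ek1) (evInc_tilt (hm 0).le gG ek1).b1
            (tilt_le_comp (hμm 0) hμ gG gG (Prec.refl _) ek1 ek1.b1 (fun _ => le_rfl)) x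
    | succ j =>
      have ht : Fin.tail ρ' = Function.update (Fin.tail ρ) j (Fin.tail ρ j + e) :=
        Fin.tail_update_succ ρ j _
      have h0 : ρ' 0 = ρ 0 := Function.update_of_ne (Fin.succ_ne_zero j).symm ..
      have h1 : ρ' 1 = Fin.tail ρ' 0 := rfl
      have h2 : ρ 1 = Fin.tail ρ 0 := rfl
      have htm : Monotone (Fin.tail ρ) := hρ.comp Fin.strictMono_succ.monotone
      have htm' : Monotone (Function.update (Fin.tail ρ) j (Fin.tail ρ j + e)) :=
        ht ▸ hρ'.comp Fin.strictMono_succ.monotone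
      obtain ⟨ihP, ihV⟩ := ih hmt (fun i => hm1 i.succ) (hmono.comp Fin.strictMono_succ.monotone)
        (Fin.tail ρ) j e htm he htm' (m 0) (ρ 0) (hm 0).le (hm1 0)
        (fun i => hmono (Fin.zero_le _)) (hρ (Fin.zero_le _))
      have eL' : level m ρ' logCosh 0 =
          layer (m 0) (Fin.tail ρ' 0 - ρ 0) (level (Fin.tail m) (Fin.tail ρ') logCosh 0) := by
        rw [level_cons_zero, h0, h1]
      have eL : level m ρ logCosh 0 = layer (m 0) (Fin.tail ρ 0 - ρ 0) L1 := by
        rw [level_cons_zero, h2]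
      rw [← ht] at ihP ihV
      have gL : Good (level m ρ logCosh 0) := good_level hm ρ 0
      have gL' : Good (level m ρ' logCosh 0) := good_level hm ρ' 0
      have hP : Prec (level m ρ' logCosh 0) (level m ρ logCosh 0) := by rw [eL', eL]; exact ihP
      rw [h0]
      refine ⟨prec_layer le_rfl hμ gL' gL hP, fun p hp x => ?_⟩
      refine tilt_le_comp le_rfl hμ gL' gL hP (evInc_down hm ρ' p (evInc_magSq hm ρ' p))
        (evInc_down hm ρ p (evInc_magSq hm ρ p)).b1 (fun y => ?_) x
      cases p using Fin.cases with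
      | zero =>
        rw [down_cons_zero, down_cons_zero]
        refine EvInc.le_of_le_nonneg (evInc_magSq hm ρ' 0) (evInc_magSq hm ρ 0) (fun z hz => ?_) y
        exact pow_le_pow_left₀ (gL'.nonneg z hz) (hP z hz) 2
      | succ p =>
        have hpj : p ≠ j := fun hh => hp (by rw [hh])
        rw [down_cons_succ, down_cons_succ, h0, h1, h2]
        exact ihV p hpj y

end Vale.Agent.P157.Parisi.Full.Concave
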