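import Vale.Agent.P157.Full.Statements
import Vale.Agent.P157.Full.Concave.Raise

/-!
The site part of the functional: the conjugate of a field path is an overlap path, and the site part
lies below its tangents.
-/

noncomputable section

open MeasureTheory ProbabilityTheory Filter Topology

namespace Vale.Agent.P157.Parisi.Full.Concave

variable {r : ℕ} {m : Fin r → ℝ}

lemma IsFieldPath.m_le_one {ρ : Fin (r + 1) → ℝ} (h : IsFieldPath m ρ) (i : Fin r) : m i ≤ 1 :=
  (h.lt_one i).le

lemma down_succ_le {ρ : Fin (r + 1) → ℝ} (hm : ∀ i, 0 < m i) (p : Fin r) (x : ℝ) :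
    down m ρ logCosh p.castSucc (magSq m ρ p.castSucc) x ≤
      down m ρ logCosh p.succ (magSq m ρ p.succ) x := by
  rw [down_succ m ρ p]
  have g := good_level hm ρ p.succ
  refine (down_mono_b1 hm ρ p.castSucc (evInc_magSq hm ρ p.castSucc).b1
    (b1_tilt (hm p).le g.lip (evInc_magSq hm ρ p.succ).b1) fun y => ?_).2.2 x
  unfold magSq
  rw [level_castSucc m ρ p, deriv_layer_lip (hm p) g.lip g.diff g.b1]
  exact sq_tilt_le_tilt_sq (hm p).le g.lip g.b1 y

theorem siteSlope_spec : SiteSlopeStmt := by
  intro r m ρ hρ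
  have hb : ∀ p, B1 (down m ρ logCosh p (magSq m ρ p)) := fun p =>
    (evInc_down hρ.pos ρ p (evInc_magSq hρ.pos ρ p)).b1
  have h0 : ∀ p x, 0 ≤ down m ρ logCosh p (magSq m ρ p) x := fun p x => by
    induction p using Fin.induction generalizing x with
    | zero => rw [down_zero]; exact sq_nonneg _
    | succ p ih => exact (ih x).trans (down_succ_le hρ.pos p x)
  refine ⟨Fin.monotone_iff_le_succ.2 fun p => ?_, fun p => ⟨?_, ?_⟩⟩
  · rw [siteSlope_eq_tilt m ρ _ logCosh, siteSlope_eq_tilt m ρ _ logCosh]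
    exact tilt_mono_h le_rfl good_logCosh.lip (hb _) (hb _) (down_succ_le hρ.pos p) 0
  · rw [siteSlope_eq_tilt m ρ p logCosh]
    exact tilt_nonneg (h0 p) 0
  · rw [siteSlope_eq_tilt m ρ p logCosh]
    exact le_of_abs_le ((b1_tilt le_rfl good_logCosh.lip (hb p)).bound 0)

/-! ### Shifts and the order -/

lemma level_shift : ∀ {r : ℕ} (m : Fin r → ℝ) (ρ : Fin (r + 1) → ℝ) (c : ℝ) (φ : ℝ → ℝ)
    (p : Fin (r + 1)), level m (fun i => ρ i + c) φ p = level m ρ φ p := by
  intro r
  induction r with
  | zero => exact fun _ _ _ _ _ => rfl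
  | succ r ih =>
    intro m ρ c φ p
    have ht : Fin.tail (fun i => ρ i + c) = fun i => Fin.tail ρ i + c := rfl
    cases p using Fin.cases with
    | zero => rw [level_cons_zero, level_cons_zero, ht, ih, add_sub_add_right_eq_sub]
    | succ p => rw [level_cons_succ, level_cons_succ, ht, ih]

lemma down_shift : ∀ {r : ℕ} (m : Fin r → ℝ) (ρ : Fin (r + 1) → ℝ) (c : ℝ) (φ h : ℝ → ℝ)
    (p : Fin (r + 1)), down m (fun i => ρ i + c) φ p h = down m ρ φ p h := by
  intro r
  induction r with
  | zero => exact fun _ _ _ _ _ _ => rfl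
  | succ r ih =>
    intro m ρ c φ h p
    have ht : Fin.tail (fun i => ρ i + c) = fun i => Fin.tail ρ i + c := rfl
    cases p using Fin.cases with
    | zero => rfl
    | succ p =>
      rw [down_cons_succ, down_cons_succ, ht, ih, level_shift, add_sub_add_right_eq_sub]

lemma siteSlope_shift {ρ : Fin (r + 1) → ℝ} (h : IsFieldPath m ρ) {c : ℝ} (hc : 0 ≤ c)
    (p : Fin (r + 1)) : siteSlope m ρ p ≤ siteSlope m (fun i => ρ i + c) p := by
  rw [siteSlope_eq_tilt m ρ p logCosh, siteSlope_eq_tilt m _ p logCosh]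
  have e : magSq m (fun i => ρ i + c) p = magSq m ρ p := by
    unfold magSq; rw [level_shift]
  rw [e, down_shift]
  set D := down m ρ logCosh p (magSq m ρ p) with hD
  have hDe : EvInc D := evInc_down h.pos ρ p (evInc_magSq h.pos ρ p)
  rw [show ρ 0 + c = c + ρ 0 by ring,
    tilt_add le_rfl zero_le_one good_logCosh.lip hDe.b1 hc h.nonneg]
  set T := tilt 0 (ρ 0) logCosh D
  have hT : EvInc T := evInc_tilt le_rfl good_logCosh hDe
  have hG : Good (layer 0 (ρ 0) logCosh) := good_layer' le_rfl good_logCosh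
  have hconst : B1 fun _ : ℝ => T 0 := ⟨measurable_const, fun _ => hT.b1.bound 0⟩
  refine le_trans (le_of_eq ?_) (tilt_mono_h (δ := c) le_rfl hG.lip hconst hT.b1
    (fun y => hT.abs_le (by simp)) 0)
  simp [tilt]

lemma update_le_slope {ρ : Fin (r + 1) → ℝ} (h : IsFieldPath m ρ) {j p : Fin (r + 1)} {v : ℝ}
    (hv : ρ j ≤ v) (hmon : Monotone (Function.update ρ j v)) (hpj : p = j → v = ρ j) :
    siteSlope m (Function.update ρ j v) p ≤ siteSlope m ρ p := by
  rcases eq_or_ne p j with hp | hp
  · rw [hpj hp, Function.update_eq_self]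
  · have e : Function.update ρ j v = Function.update ρ j (ρ j + (v - ρ j)) := by ring_nf
    have hr := (raise h.pos (fun i => (h.lt_one i).le) h.strictMono.monotone ρ j (v - ρ j) h.mono
      (sub_nonneg.2 hv) (e ▸ hmon) 0 0 le_rfl zero_le_one (fun i => (h.pos i).le) h.nonneg).2 p hp 0
    rw [← e] at hr
    simp only [sub_zero] at hr
    rwa [← siteSlope_eq_tilt, ← siteSlope_eq_tilt] at hr

lemma siteSlope_anti {ρ z : Fin (r + 1) → ℝ} (hρ : IsFieldPath m ρ) (hz : IsFieldPath m z)
    (hle : ∀ i, ρ i ≤ z i) (p : Fin (r + 1)) (hp : z p = ρ p) :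
    siteSlope m z p ≤ siteSlope m ρ p := by
  set w : ℕ → Fin (r + 1) → ℝ := fun k i => if k ≤ i.val then z i else ρ i with hw
  have hwp : ∀ k, IsFieldPath m (w k) := fun k => ⟨hρ.pos, hρ.lt_one, hρ.strictMono, fun i i' h => by
    simp only [hw]
    have h' : i.val ≤ i'.val := h
    split_ifs with h1 h2 h2
    · exact hz.mono h
    · omega
    · exact (hρ.mono h).trans (hle _)
    · exact hρ.mono h, by
    simp only [hw]; split_ifs
    · exact hz.nonneg
    · exact hρ.nonneg⟩
  have h0 : w 0 = z := funext fun i => by simp [hw]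
  have hlast : w (r + 1) = ρ := funext fun i => by simp [hw, Nat.not_le.2 i.isLt]
  have step : ∀ k, k ≤ r → siteSlope m (w k) p ≤ siteSlope m (w (k + 1)) p := by
    intro k hk
    set j : Fin (r + 1) := ⟨k, Nat.lt_succ_of_le hk⟩ with hj
    have hjr : w (k + 1) j = ρ j := by simp [hw, hj]
    have e : w k = Function.update (w (k + 1)) j (z j) := by
      funext i
      rcases eq_or_ne i j with rfl | hij
      · simp [hw, hj]
      · have : i.val ≠ k := fun h => hij (Fin.ext h)
        simp only [hw, Function.update_of_ne hij]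
        split_ifs <;> first | rfl | omega
    rw [e]
    exact update_le_slope (hwp _) (hjr ▸ hle j) (e ▸ (hwp k).mono)
      fun hpe => by rw [hjr, ← hpe, hp]
  have hind : ∀ k, k ≤ r + 1 → siteSlope m z p ≤ siteSlope m (w k) p := by
    intro k
    induction k with
    | zero => exact fun _ => h0.symm ▸ le_rfl
    | succ k ih => exact fun hk => (ih (by omega)).trans (step k (by omega))
  exact hlast ▸ hind (r + 1) le_rfl

/-! ### Concavity -/

/-- The path moved from `ρ` towards `ρ'` by at most `s` in each coordinate. -/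
def clampPath (ρ ρ' : Fin (r + 1) → ℝ) (s : ℝ) : Fin (r + 1) → ℝ :=
  fun p => max (ρ p - s) (min (ρ' p) (ρ p + s))

lemma clampPath_zero (ρ ρ' : Fin (r + 1) → ℝ) : clampPath ρ ρ' 0 = ρ := by
  funext p
  simp only [clampPath, sub_zero, add_zero]
  exact max_eq_left (min_le_right _ _)

lemma clampPath_of_abs_le {ρ ρ' : Fin (r + 1) → ℝ} {s : ℝ} {p : Fin (r + 1)}
    (h : |ρ' p - ρ p| ≤ s) : clampPath ρ ρ' s p = ρ' p := by
  rw [abs_le] at h
  unfold clampPath
  rw [min_eq_left (by linarith), max_eq_right (by linarith)]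

lemma clampPath_of_lt {ρ ρ' : Fin (r + 1) → ℝ} {s : ℝ} {p : Fin (r + 1)} (hs : 0 ≤ s)
    (h : s ≤ ρ' p - ρ p) : clampPath ρ ρ' s p = ρ p + s := by
  unfold clampPath
  rw [min_eq_right (by linarith), max_eq_right (by linarith)]

lemma clampPath_of_gt {ρ ρ' : Fin (r + 1) → ℝ} {s : ℝ} {p : Fin (r + 1)}
    (h : s ≤ ρ p - ρ' p) : clampPath ρ ρ' s p = ρ p - s := by
  unfold clampPath
  exact max_eq_left ((min_le_left _ _).trans (by linarith))

lemma isFieldPath_clamp {ρ ρ' : Fin (r + 1) → ℝ} (hρ : IsFieldPath m ρ) (hρ' : IsFieldPath m ρ')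
    {s : ℝ} (hs : 0 ≤ s) : IsFieldPath m (clampPath ρ ρ' s) :=
  ⟨hρ.pos, hρ.lt_one, hρ.strictMono, fun i j h =>
    max_le_max (by linarith [hρ.mono h]) (min_le_min (hρ'.mono h) (by linarith [hρ.mono h])),
    le_trans (le_min hρ'.nonneg (by linarith [hρ.nonneg])) (le_max_right _ _)⟩

/-- Along the clamped path the conjugate moves the right way. -/
lemma slope_clamp {ρ ρ' : Fin (r + 1) → ℝ} (hρ : IsFieldPath m ρ) (hρ' : IsFieldPath m ρ')
    {s : ℝ} (hs : 0 ≤ s) (p : Fin (r + 1)) :
    (s ≤ ρ' p - ρ p → siteSlope m ρ p ≤ siteSlope m (clampPath ρ ρ' s) p) ∧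
      (s ≤ ρ p - ρ' p → siteSlope m (clampPath ρ ρ' s) p ≤ siteSlope m ρ p) := by
  have hz := isFieldPath_clamp hρ hρ' hs
  have up : ∀ {τ : Fin (r + 1) → ℝ}, IsFieldPath m τ → IsFieldPath m fun i => τ i + s := fun h =>
    ⟨h.pos, h.lt_one, h.strictMono, fun i j hij => by linarith [h.mono hij],
      by linarith [h.nonneg]⟩
  constructor
  · intro h
    refine (siteSlope_shift hρ hs p).trans ?_
    exact siteSlope_anti hz (up hρ) (fun i => max_le (by linarith) (min_le_right _ _)) p
      (clampPath_of_lt hs h).symm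
  · intro h
    refine (siteSlope_shift hz hs p).trans ?_
    refine siteSlope_anti hρ (up hz) (fun i => ?_) p (by rw [clampPath_of_gt h]; ring)
    have : ρ i - s ≤ clampPath ρ ρ' s i := le_max_left _ _
    show ρ i ≤ clampPath ρ ρ' s i + s
    linarith

lemma weight_nonneg {ρ : Fin (r + 1) → ℝ} (h : IsFieldPath m ρ) (p : Fin (r + 1)) :
    0 ≤ weight m p := by
  unfold weight
  rw [sub_nonneg]
  cases p using Fin.lastCases with
  | last =>
    rw [Fin.snoc_last]
    rcases Nat.eq_zero_or_pos r with rfl | hr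
    · simp
    · obtain ⟨r, rfl⟩ := Nat.exists_eq_succ_of_ne_zero hr.ne'
      rw [← Fin.succ_last, Fin.cons_succ]
      exact (h.lt_one _).le
  | cast p =>
    rw [Fin.snoc_castSucc]
    obtain ⟨v, hv⟩ := p
    rcases v with _ | v
    · exact (h.pos _).le
    · show (Fin.cons 0 m : Fin (r + 1) → ℝ) (Fin.succ ⟨v, by omega⟩) ≤ m _
      rw [Fin.cons_succ]
      exact h.strictMono.monotone (Fin.le_def.2 (Nat.le_succ v))

theorem concave_spec (hD : SiteDerivStmt) : ConcaveStmt := by
  intro r m ρ ρ' hρ hρ'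
  set u := fun p => |ρ' p - ρ p| with hu
  suffices key : ∀ (n : ℕ) (a : ℝ), 0 ≤ a → (Finset.univ.filter fun p => a < u p).card ≤ n →
      siteValue m ρ' - siteValue m (clampPath ρ ρ' a) ≤
        -(1 / 2) * ∑ p, weight m p * siteSlope m ρ p * (ρ' p - clampPath ρ ρ' a p) by
    have := key _ 0 le_rfl le_rfl
    rw [clampPath_zero] at this
    linarith
  intro n
  induction n with
  | zero =>
    intro a ha hn
    have e : clampPath ρ ρ' a = ρ' := funext fun p => clampPath_of_abs_le (by
      by_contra hc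
      rw [Nat.le_zero, Finset.card_eq_zero, Finset.filter_eq_empty_iff] at hn
      exact hn (Finset.mem_univ p) (not_le.1 hc))
    simp [e]
  | succ n ih =>
    intro a ha hn
    rcases (Finset.univ.filter fun p => a < u p).eq_empty_or_nonempty with h | h
    · exact ih a ha (by simp [h])
    obtain ⟨p₀, hp₀, hmin⟩ := Finset.exists_min_image _ u h
    set b := u p₀ with hb
    have hab : a < b := (Finset.mem_filter.1 hp₀).2
    have hb0 : 0 ≤ b := ha.trans hab.le
    have hcard : (Finset.univ.filter fun p => b < u p).card ≤ n := by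
      have hss : (Finset.univ.filter fun p => b < u p) ⊂ Finset.univ.filter fun p => a < u p := by
        refine Finset.ssubset_iff_of_subset (fun p hp => ?_) |>.2 ⟨p₀, hp₀, by simp [hb]⟩
        simp only [Finset.mem_filter, Finset.mem_univ, true_and] at hp ⊢
        linarith
      have := Finset.card_lt_card hss
      omega
    have hza := isFieldPath_clamp hρ hρ' ha
    have hzb := isFieldPath_clamp hρ hρ' hb0
    have h1 : siteValue m (clampPath ρ ρ' b) - siteValue m (clampPath ρ ρ' a) ≤
        -(1 / 2) * ∑ p, weight m p * siteSlope m ρ p *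
          (clampPath ρ ρ' b p - clampPath ρ ρ' a p) := by
      refine hD r m _ _ hza hzb _ fun t ht => ?_
      set s := (1 - t) * a + t * b with hsdef
      have hs : a ≤ s := by nlinarith [ht.1, ht.2]
      have hsb : s ≤ b := by nlinarith [ht.1, ht.2]
      have hcase : ∀ p, u p ≤ a ∨ b ≤ ρ' p - ρ p ∨ b ≤ ρ p - ρ' p := fun p => by
        rcases le_or_gt (u p) a with hp | hp
        · exact Or.inl hp
        · have hbu : b ≤ |ρ' p - ρ p| := hmin p (by simp [hp])
          rcases abs_choice (ρ' p - ρ p) with e | e <;> rw [e] at hbu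
          · exact Or.inr (Or.inl hbu)
          · exact Or.inr (Or.inr (by linarith))
      have hseg : seg (clampPath ρ ρ' a) (clampPath ρ ρ' b) t = clampPath ρ ρ' s := by
        funext p
        rcases hcase p with hp | hp | hp
        · rw [seg, clampPath_of_abs_le hp, clampPath_of_abs_le (hp.trans hab.le),
            clampPath_of_abs_le (hp.trans hs)]
          ring
        · rw [seg, clampPath_of_lt ha (hab.le.trans hp), clampPath_of_lt hb0 hp,
            clampPath_of_lt (ha.trans hs) (hsb.trans hp), hsdef]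
          ring
        · rw [seg, clampPath_of_gt (hab.le.trans hp), clampPath_of_gt hp,
            clampPath_of_gt (hsb.trans hp), hsdef]
          ring
      rw [hseg]
      refine mul_le_mul_of_nonpos_left (Finset.sum_le_sum fun p _ => ?_) (by norm_num)
      obtain ⟨hup, hdn⟩ := slope_clamp hρ hρ' (ha.trans hs) p
      have hw := weight_nonneg hρ p
      rcases hcase p with hp | hp | hp
      · rw [clampPath_of_abs_le hp, clampPath_of_abs_le (hp.trans hab.le), sub_self]
        simp
      · rw [clampPath_of_lt hb0 hp, clampPath_of_lt ha (hab.le.trans hp)]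
        exact mul_le_mul_of_nonneg_right (mul_le_mul_of_nonneg_left (hup (hsb.trans hp)) hw)
          (by linarith)
      · rw [clampPath_of_gt hp, clampPath_of_gt (hab.le.trans hp)]
        exact mul_le_mul_of_nonpos_right (mul_le_mul_of_nonneg_left (hdn (hsb.trans hp)) hw)
          (by linarith)
    have h2 := ih b hb0 hcard
    have e : ∑ p, weight m p * siteSlope m ρ p * (ρ' p - clampPath ρ ρ' a p) =
        ∑ p, weight m p * siteSlope m ρ p * (clampPath ρ ρ' b p - clampPath ρ ρ' a p) +
          ∑ p, weight m p * siteSlope m ρ p * (ρ' p - clampPath ρ ρ' b p) := by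
      rw [← Finset.sum_add_distrib]
      exact Finset.sum_congr rfl fun p _ => by ring
    rw [e]
    linarith

end Vale.Agent.P157.Parisi.Full.Concave
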