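import Vale.Agent.P157.Full.Concave.Basic

/-!
Monotone tilts: for an even potential increasing on the half line, a Gaussian tilt of a symmetric
increasing function increases in the starting point and in the potential.
-/

noncomputable section

open MeasureTheory ProbabilityTheory Filter Topology

namespace Vale.Agent.P157.Parisi.Full.Concave

open Up (Lip1)

lemma tanh_le_tanh {u v : ℝ} (h : u ≤ v) : Real.tanh u ≤ Real.tanh v := by
  rw [Real.tanh_eq_sinh_div_cosh, Real.tanh_eq_sinh_div_cosh,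
    div_le_div_iff₀ (Real.cosh_pos u) (Real.cosh_pos v)]
  have h1 := Real.sinh_nonneg_iff.2 (sub_nonneg.2 h)
  rw [Real.sinh_sub] at h1
  linarith

lemma tanh_nonneg {u : ℝ} (h : 0 ≤ u) : 0 ≤ Real.tanh u := by
  simpa [Real.tanh_zero] using tanh_le_tanh h

lemma continuous_tanh : Continuous Real.tanh := by
  simp only [funext Real.tanh_eq_sinh_div_cosh]
  exact Real.continuous_sinh.div Real.continuous_cosh fun x => (Real.cosh_pos x).ne'

lemma cosh_mul_le {a b u v : ℝ} (ha : 0 ≤ a) (hab : a ≤ b) (hu : 0 ≤ u) (huv : u ≤ v) :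
    Real.cosh (b * u) * Real.cosh (a * v) ≤ Real.cosh (a * u) * Real.cosh (b * v) := by
  have e : ∀ x y : ℝ, 2 * (Real.cosh x * Real.cosh y) = Real.cosh (x + y) + Real.cosh (x - y) :=
    fun x y => by rw [Real.cosh_add, Real.cosh_sub]; ring
  have hp := mul_nonneg (sub_nonneg.2 hab) (sub_nonneg.2 huv)
  have hb := ha.trans hab
  have hv := hu.trans huv
  have h1 : Real.cosh (b * u + a * v) ≤ Real.cosh (a * u + b * v) := by
    rw [Real.cosh_le_cosh, abs_of_nonneg (by positivity), abs_of_nonneg (by positivity)]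
    linarith
  have h2 : Real.cosh (b * u - a * v) ≤ Real.cosh (a * u - b * v) := by
    have h3 : a * u ≤ b * v := mul_le_mul hab huv hu hb
    rw [Real.cosh_le_cosh, abs_of_nonpos (sub_nonpos.2 h3), abs_le]
    constructor <;> nlinarith
  linarith [e (b * u) (a * v), e (a * u) (b * v)]

/-- Chebyshev's inequality for two weights with increasing ratio in the modulus. -/
lemma cheb {μ : Measure ℝ} [IsProbabilityMeasure μ] {φ a b : ℝ → ℝ} (ia : Integrable a μ)
    (ib : Integrable b μ) (iφa : Integrable (fun g => φ g * a g) μ)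
    (iφb : Integrable (fun g => φ g * b g) μ) (hap : 0 < ∫ g, a g ∂μ) (hbp : 0 < ∫ g, b g ∂μ)
    (hφ : ∀ u v, |u| ≤ |v| → φ u ≤ φ v) (hr : ∀ u v, |u| ≤ |v| → b u * a v ≤ a u * b v) :
    (∫ g, φ g * a g ∂μ) / (∫ g, a g ∂μ) ≤ (∫ g, φ g * b g ∂μ) / ∫ g, b g ∂μ := by
  have hnn : 0 ≤ ∫ p : ℝ × ℝ, (φ p.1 - φ p.2) * (b p.1 * a p.2 - a p.1 * b p.2) ∂μ.prod μ :=
    integral_nonneg fun p => by
      rcases le_total |p.1| |p.2| with h | h
      · exact mul_nonneg_of_nonpos_of_nonpos (sub_nonpos.2 (hφ _ _ h)) (sub_nonpos.2 (hr _ _ h))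
      · refine mul_nonneg (sub_nonneg.2 (hφ _ _ h)) (sub_nonneg.2 ?_)
        have := hr _ _ h
        linarith
  have he : (fun p : ℝ × ℝ => (φ p.1 - φ p.2) * (b p.1 * a p.2 - a p.1 * b p.2)) = fun p =>
      (φ p.1 * b p.1 * a p.2 - φ p.1 * a p.1 * b p.2) -
        (b p.1 * (φ p.2 * a p.2) - a p.1 * (φ p.2 * b p.2)) := funext fun p => by ring
  rw [he, integral_sub ((iφb.mul_prod ia).sub' (iφa.mul_prod ib))
    ((ib.mul_prod iφa).sub' (ia.mul_prod iφb)), integral_sub (iφb.mul_prod ia) (iφa.mul_prod ib),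
    integral_sub (ib.mul_prod iφa) (ia.mul_prod iφb)] at hnn
  simp only [integral_prod_mul (μ := μ) (ν := μ) (fun g => φ g * b g) a,
    integral_prod_mul (μ := μ) (ν := μ) (fun g => φ g * a g) b,
    integral_prod_mul (μ := μ) (ν := μ) b (fun g => φ g * a g),
    integral_prod_mul (μ := μ) (ν := μ) a (fun g => φ g * b g)] at hnn
  rw [div_le_div_iff₀ hap hbp]
  linarith

/-- An even potential of the recursion: Lipschitz, with slope increasing on the half line. -/
structure Good (F : ℝ → ℝ) : Prop where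
  even : ∀ x, F (-x) = F x
  diff : Differentiable ℝ F
  b1 : B1 (deriv F)
  mono : MonotoneOn (deriv F) (Set.Ici 0)
  nonneg : ∀ x, 0 ≤ x → 0 ≤ deriv F x

lemma Good.lip {F : ℝ → ℝ} (h : Good F) : Lip1 F := lip1_of_deriv h.diff h.b1.bound

lemma Good.abs {F : ℝ → ℝ} (h : Good F) (x : ℝ) : F |x| = F x := by
  rcases abs_choice x with e | e <;> rw [e]
  exact h.even x

lemma Good.odd {F : ℝ → ℝ} (h : Good F) (x : ℝ) : deriv F (-x) = -deriv F x := by
  have h1 : deriv (fun y => F (-y)) x = -deriv F (-x) := deriv_comp_neg F x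
  rw [show (fun y => F (-y)) = F from funext h.even] at h1
  linarith

/-- The scaled difference of two potentials increases with the modulus. -/
def RatioLe (μ ν : ℝ) (F G : ℝ → ℝ) : Prop :=
  ∀ u v, |u| ≤ |v| → ν * G u - μ * F u ≤ ν * G v - μ * F v

/-- Even, bounded, increasing on the half line. -/
structure EvInc (h : ℝ → ℝ) : Prop where
  b1 : B1 h
  even : ∀ x, h (-x) = h x
  mono : MonotoneOn h (Set.Ici 0)

lemma EvInc.abs_le {h : ℝ → ℝ} (hh : EvInc h) {u v : ℝ} (huv : |u| ≤ |v|) : h u ≤ h v := by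
  have e : ∀ x, h |x| = h x := fun x => by
    rcases abs_choice x with e | e <;> rw [e]
    exact hh.even x
  rw [← e u, ← e v]
  exact hh.mono (Set.mem_Ici.2 (abs_nonneg _)) (Set.mem_Ici.2 (abs_nonneg _)) huv

/-- Odd, bounded, increasing and nonnegative on the half line. -/
structure OdInc (h : ℝ → ℝ) : Prop where
  b1 : B1 h
  odd : ∀ x, h (-x) = -h x
  mono : MonotoneOn h (Set.Ici 0)
  nonneg : ∀ x, 0 ≤ x → 0 ≤ h x

lemma Good.odInc {F : ℝ → ℝ} (h : Good F) : OdInc (deriv F) := ⟨h.b1, h.odd, h.mono, h.nonneg⟩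

lemma OdInc.sq {h : ℝ → ℝ} (hh : OdInc h) : EvInc fun x => h x ^ 2 :=
  ⟨hh.b1.sq, fun x => by simp [hh.odd], fun _ hx _ hy hxy =>
    pow_le_pow_left₀ (hh.nonneg _ hx) (hh.mono hx hy hxy) 2⟩

variable {m δ μ ν : ℝ} {F G h k : ℝ → ℝ}

/-- The symmetrised weight. -/
def symW (m δ : ℝ) (F : ℝ → ℝ) (a g : ℝ) : ℝ :=
  Real.exp (m * F (Real.sqrt δ * g)) * Real.cosh (a * g)

lemma symW_pos (m δ : ℝ) (F : ℝ → ℝ) (a g : ℝ) : 0 < symW m δ F a g :=
  mul_pos (Real.exp_pos _) (Real.cosh_pos _)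

lemma integrable_exp_mul (hm : 0 ≤ m) (hF : Lip1 F) (hh : B1 h) (a : ℝ) :
    Integrable (fun g => Real.exp (m * F (Real.sqrt δ * g)) * h (Real.sqrt δ * g) * Real.exp (a * g))
      (gaussianReal 0 1) := by
  refine ((Site.integrable_exp_abs (m * Real.sqrt δ + |a|)).const_mul (Real.exp (m * |F 0|))).mono'
    ((((hF.continuous.measurable.comp (measurable_const_mul _)).const_mul m).exp.mul
      (hh.meas.comp (measurable_const_mul _))).mul (by fun_prop)).aestronglyMeasurable
    (ae_of_all _ fun g => ?_)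
  rw [Real.norm_eq_abs, abs_mul, abs_mul, Real.abs_exp, Real.abs_exp]
  refine (mul_le_mul_of_nonneg_right (mul_le_of_le_one_right (Real.exp_pos _).le (hh.bound _))
    (Real.exp_pos _).le).trans ?_
  refine (mul_le_mul_of_nonneg_right (exp_lip_le hm hF _) (Real.exp_pos _).le).trans ?_
  rw [mul_assoc, ← Real.exp_add]
  refine mul_le_mul_of_nonneg_left (Real.exp_le_exp.2 ?_) (Real.exp_pos _).le
  rw [abs_mul, abs_of_nonneg (Real.sqrt_nonneg δ)]
  have : a * g ≤ |a| * |g| := by rw [← abs_mul]; exact le_abs_self _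
  linarith

lemma integrable_symW_mul (hm : 0 ≤ m) (hF : Lip1 F) {φ : ℝ → ℝ} (hφ : B1 φ) (a : ℝ) :
    Integrable (fun g => φ g * symW m δ F a g) (gaussianReal 0 1) := by
  have h1 := integrable_exp_mul (δ := δ) hm hF B1.const_one a
  have h2 := integrable_exp_mul (δ := δ) hm hF B1.const_one (-a)
  refine ((h1.add h2).mono' (hφ.meas.mul (((hF.continuous.measurable.comp
    (measurable_const_mul _)).const_mul m).exp.mul (by fun_prop))).aestronglyMeasurable
    (ae_of_all _ fun g => ?_))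
  simp only [Pi.add_apply, mul_one, symW]
  rw [Real.norm_eq_abs, abs_mul, abs_of_pos (mul_pos (Real.exp_pos _) (Real.cosh_pos _))]
  refine (mul_le_of_le_one_left (mul_pos (Real.exp_pos _) (Real.cosh_pos _)).le (hφ.bound _)).trans ?_
  rw [← mul_add]
  refine mul_le_mul_of_nonneg_left ?_ (Real.exp_pos _).le
  rw [Real.cosh_eq, neg_mul]
  linarith [Real.exp_pos (a * g), Real.exp_pos (-(a * g))]

lemma integrable_symW (hm : 0 ≤ m) (hF : Lip1 F) (a : ℝ) :
    Integrable (symW m δ F a) (gaussianReal 0 1) := by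
  simpa using integrable_symW_mul (δ := δ) hm hF B1.const_one a

lemma integral_symW_pos (hm : 0 ≤ m) (hF : Lip1 F) (a : ℝ) :
    0 < ∫ g, symW m δ F a g ∂gaussianReal 0 1 := by
  refine (integral_pos_iff_support_of_nonneg (fun g => (symW_pos m δ F a g).le)
    (integrable_symW hm hF a)).2 ?_
  rw [show Function.support (symW m δ F a) = Set.univ from
    Set.eq_univ_of_forall fun g => (symW_pos m δ F a g).ne']
  simp

/-- Shifting by Cameron–Martin. -/
lemma integral_wfun_shift (hδ : 0 < δ) (h : ℝ → ℝ) (x : ℝ) :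
    ∫ g, wfun m δ F h x g ∂gaussianReal 0 1 = Real.exp (-((x / Real.sqrt δ) ^ 2 / 2)) *
      ∫ g, Real.exp (m * F (Real.sqrt δ * g)) * h (Real.sqrt δ * g) *
        Real.exp (x / Real.sqrt δ * g) ∂gaussianReal 0 1 := by
  have hs : Real.sqrt δ ≠ 0 := (Real.sqrt_pos.2 hδ).ne'
  set a := x / Real.sqrt δ with ha
  have hx : x = Real.sqrt δ * a := by rw [ha]; field_simp
  have h1 := integral_shift (fun g => Real.exp (m * F (Real.sqrt δ * g)) * h (Real.sqrt δ * g)) a
  rw [← integral_const_mul]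
  refine Eq.trans ?_ (h1.trans (integral_congr_ae (ae_of_all _ fun g => ?_)))
  · refine integral_congr_ae (ae_of_all _ fun g => ?_)
    simp only [wfun]
    rw [show x + Real.sqrt δ * g = Real.sqrt δ * (g + a) by rw [hx]; ring]
  · show _ * dens a g = _
    rw [dens, show a * g - a ^ 2 / 2 = -(a ^ 2 / 2) + a * g by ring, Real.exp_add]
    ring

lemma integral_sym {p : ℝ → ℝ} (hp : Integrable p (gaussianReal 0 1))
    (hp' : Integrable (fun g => p (-g)) (gaussianReal 0 1)) :
    ∫ g, p g ∂gaussianReal 0 1 = ∫ g, (p g + p (-g)) / 2 ∂gaussianReal 0 1 := by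
  have hneg : ∫ g, p (-g) ∂gaussianReal 0 1 = ∫ g, p g ∂gaussianReal 0 1 := by
    have hmap : (gaussianReal 0 1).map (fun g => -g) = gaussianReal 0 1 := by
      rw [gaussianReal_map_neg, neg_zero]
    conv_rhs => rw [← hmap]
    rw [integral_map measurable_neg.aemeasurable (hmap.symm ▸ hp.1)]
  rw [integral_div, integral_add hp hp', hneg]
  ring

lemma tilt_even_eq (hm : 0 ≤ m) (hδ : 0 < δ) (hF : Good F) (hh : B1 h) (he : ∀ y, h (-y) = h y)
    (x : ℝ) : tilt m δ F h x =
      (∫ g, h (Real.sqrt δ * g) * symW m δ F (x / Real.sqrt δ) g ∂gaussianReal 0 1) /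
        ∫ g, symW m δ F (x / Real.sqrt δ) g ∂gaussianReal 0 1 := by
  have key : ∀ k : ℝ → ℝ, B1 k → (∀ y, k (-y) = k y) →
      ∫ g, wfun m δ F k x g ∂gaussianReal 0 1 = Real.exp (-((x / Real.sqrt δ) ^ 2 / 2)) *
        ∫ g, k (Real.sqrt δ * g) * symW m δ F (x / Real.sqrt δ) g ∂gaussianReal 0 1 := by
    intro k hk hke
    rw [integral_wfun_shift hδ]
    refine congrArg _ ?_
    set a := x / Real.sqrt δ
    have e : ∀ g, Real.exp (m * F (Real.sqrt δ * -g)) * k (Real.sqrt δ * -g) * Real.exp (a * -g) =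
        Real.exp (m * F (Real.sqrt δ * g)) * k (Real.sqrt δ * g) * Real.exp (-a * g) := fun g => by
      rw [mul_neg, hF.even, hke, neg_mul, mul_neg]
    rw [integral_sym (integrable_exp_mul hm hF.lip hk a)
      ((integrable_exp_mul hm hF.lip hk (-a)).congr (ae_of_all _ fun g => (e g).symm))]
    refine integral_congr_ae (ae_of_all _ fun g => ?_)
    simp only [e, symW, Real.cosh_eq]
    rw [neg_mul]; ring
  have hd := key _ B1.const_one fun _ => rfl
  simp only [wfun_one, one_mul] at hd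
  rw [tilt_eq_div, den, hd, key h hh he, mul_div_mul_left _ _ (Real.exp_pos _).ne']

lemma tilt_odd_eq (hm : 0 ≤ m) (hδ : 0 < δ) (hF : Good F) (hh : B1 h) (ho : ∀ y, h (-y) = -h y)
    (x : ℝ) : tilt m δ F h x =
      (∫ g, h (Real.sqrt δ * g) * Real.tanh (x / Real.sqrt δ * g) *
          symW m δ F (x / Real.sqrt δ) g ∂gaussianReal 0 1) /
        ∫ g, symW m δ F (x / Real.sqrt δ) g ∂gaussianReal 0 1 := by
  set a := x / Real.sqrt δ with ha
  have e : ∀ g, Real.exp (m * F (Real.sqrt δ * -g)) * h (Real.sqrt δ * -g) * Real.exp (a * -g) =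
      -(Real.exp (m * F (Real.sqrt δ * g)) * h (Real.sqrt δ * g) * Real.exp (-a * g)) := fun g => by
    rw [mul_neg, hF.even, ho, neg_mul, mul_neg]; ring_nf
  have hnum : ∫ g, wfun m δ F h x g ∂gaussianReal 0 1 = Real.exp (-(a ^ 2 / 2)) *
      ∫ g, h (Real.sqrt δ * g) * Real.tanh (a * g) * symW m δ F a g ∂gaussianReal 0 1 := by
    rw [integral_wfun_shift hδ, ← ha]
    refine congrArg _ ?_
    rw [integral_sym (integrable_exp_mul hm hF.lip hh a)
      ((integrable_exp_mul hm hF.lip hh (-a)).neg.congr (ae_of_all _ fun g => (e g).symm))]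
    refine integral_congr_ae (ae_of_all _ fun g => ?_)
    simp only [e, symW, Real.tanh_eq_sinh_div_cosh, Real.sinh_eq, neg_mul]
    have := (Real.cosh_pos (a * g)).ne'
    field_simp
    ring
  have hd : den m δ F x = Real.exp (-(a ^ 2 / 2)) *
      ∫ g, symW m δ F a g ∂gaussianReal 0 1 := by
    rw [den]
    have := integral_wfun_shift (m := m) (F := F) hδ (fun _ => 1) x
    simp only [wfun_one, mul_one, ← ha] at this
    rw [this]
    refine congrArg _ ?_
    have h1 := integrable_exp_mul (δ := δ) hm hF.lip B1.const_one a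
    have h2 := integrable_exp_mul (δ := δ) hm hF.lip B1.const_one (-a)
    simp only [mul_one] at h1 h2
    rw [integral_sym h1 (h2.congr (ae_of_all _ fun g => by simp [hF.even]))]
    refine integral_congr_ae (ae_of_all _ fun g => ?_)
    simp only [symW, Real.cosh_eq, mul_neg, hF.even]
    ring
  rw [tilt_eq_div, hd, hnum, mul_div_mul_left _ _ (Real.exp_pos _).ne']

lemma symW_ratio {a b : ℝ} (ha : 0 ≤ a) (hab : a ≤ b) (hμν : RatioLe μ ν F G) (u v : ℝ)
    (huv : |u| ≤ |v|) : symW ν δ G b u * symW μ δ F a v ≤ symW μ δ F a u * symW ν δ G b v := by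
  have hc : Real.cosh (b * u) * Real.cosh (a * v) ≤ Real.cosh (a * u) * Real.cosh (b * v) := by
    have h := cosh_mul_le ha hab (abs_nonneg u) huv
    have e : ∀ c w : ℝ, 0 ≤ c → Real.cosh (c * |w|) = Real.cosh (c * w) := fun c w hc => by
      rw [← abs_of_nonneg hc, ← abs_mul, Real.cosh_abs, abs_of_nonneg hc]
    rwa [e b u (ha.trans hab), e a v ha, e a u ha, e b v (ha.trans hab)] at h
  have hs : |Real.sqrt δ * u| ≤ |Real.sqrt δ * v| := by
    rw [abs_mul, abs_mul]; exact mul_le_mul_of_nonneg_left huv (abs_nonneg _)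
  have he : Real.exp (ν * G (Real.sqrt δ * u)) * Real.exp (μ * F (Real.sqrt δ * v)) ≤
      Real.exp (μ * F (Real.sqrt δ * u)) * Real.exp (ν * G (Real.sqrt δ * v)) := by
    rw [← Real.exp_add, ← Real.exp_add]
    exact Real.exp_le_exp.2 (by linarith [hμν _ _ hs])
  calc symW ν δ G b u * symW μ δ F a v
      = (Real.exp (ν * G (Real.sqrt δ * u)) * Real.exp (μ * F (Real.sqrt δ * v))) *
          (Real.cosh (b * u) * Real.cosh (a * v)) := by simp only [symW]; ring
    _ ≤ (Real.exp (μ * F (Real.sqrt δ * u)) * Real.exp (ν * G (Real.sqrt δ * v))) *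
          (Real.cosh (a * u) * Real.cosh (b * v)) :=
        mul_le_mul he hc (mul_pos (Real.cosh_pos _) (Real.cosh_pos _)).le
          (mul_pos (Real.exp_pos _) (Real.exp_pos _)).le
    _ = symW μ δ F a u * symW ν δ G b v := by simp only [symW]; ring

lemma ratioLe_self (m : ℝ) (F : ℝ → ℝ) : RatioLe m m F F := fun u v _ => by simp

lemma tilt_even_neg (hm : 0 ≤ m) (hF : Good F) (hh : B1 h) (he : ∀ y, h (-y) = h y) (x : ℝ) :
    tilt m δ F h (-x) = tilt m δ F h x := by
  rcases lt_or_ge 0 δ with hδ | hδ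
  · rw [tilt_even_eq hm hδ hF hh he, tilt_even_eq hm hδ hF hh he, neg_div]
    simp [symW]
  · simp only [tilt, Real.sqrt_eq_zero'.2 hδ, zero_mul, add_zero, hF.even, he]

lemma tilt_odd_neg (hm : 0 ≤ m) (hF : Good F) (hh : B1 h) (ho : ∀ y, h (-y) = -h y) (x : ℝ) :
    tilt m δ F h (-x) = -tilt m δ F h x := by
  rcases lt_or_ge 0 δ with hδ | hδ
  · rw [tilt_odd_eq hm hδ hF hh ho, tilt_odd_eq hm hδ hF hh ho, neg_div]
    simp [symW, Real.tanh_neg, integral_neg, neg_div]
  · simp only [tilt, Real.sqrt_eq_zero'.2 hδ, zero_mul, add_zero, hF.even, ho, mul_neg,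
      integral_neg, neg_div]

lemma tilt_of_nonpos (hδ : δ ≤ 0) (x : ℝ) : tilt m δ F h x = h x := by
  have e : tilt m δ F h x = tilt m 0 F h x := by
    simp only [tilt, Real.sqrt_eq_zero'.2 hδ, Real.sqrt_zero]
  rw [e, tilt_zero_delta]

/-- Comparison of two tilts of even increasing functions. -/
lemma tilt_le_even (hμ : 0 ≤ μ) (hν : 0 ≤ ν) (hF : Good F) (hG : Good G)
    (hR : RatioLe μ ν F G) (hh : EvInc h) {x y : ℝ} (hxy : |x| ≤ |y|) :
    tilt μ δ F h x ≤ tilt ν δ G h y := by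
  have ex : ∀ (m : ℝ) (F : ℝ → ℝ), 0 ≤ m → Good F → ∀ z, tilt m δ F h |z| = tilt m δ F h z :=
    fun m F hm hF z => by
      rcases abs_choice z with e | e <;> rw [e]
      exact tilt_even_neg hm hF hh.b1 hh.even z
  rw [← ex μ F hμ hF x, ← ex ν G hν hG y]
  rcases lt_or_ge 0 δ with hδ | hδ
  · rw [tilt_even_eq hμ hδ hF hh.b1 hh.even, tilt_even_eq hν hδ hG hh.b1 hh.even]
    set a := |x| / Real.sqrt δ
    set b := |y| / Real.sqrt δ
    have hab : a ≤ b := div_le_div_of_nonneg_right hxy (Real.sqrt_nonneg _)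
    have hb : B1 fun g => h (Real.sqrt δ * g) :=
      ⟨hh.b1.meas.comp (measurable_const_mul _), fun g => hh.b1.bound _⟩
    exact cheb (integrable_symW hμ hF.lip a) (integrable_symW hν hG.lip b)
      (integrable_symW_mul hμ hF.lip hb a) (integrable_symW_mul hν hG.lip hb b)
      (integral_symW_pos hμ hF.lip a) (integral_symW_pos hν hG.lip b)
      (fun u v huv => hh.abs_le (by
        rw [abs_mul, abs_mul]; exact mul_le_mul_of_nonneg_left huv (abs_nonneg _)))
      (symW_ratio (by positivity) hab hR)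
  · rw [tilt_of_nonpos hδ, tilt_of_nonpos hδ]
    exact hh.abs_le (by simpa using hxy)

/-- Comparison of two tilts of odd increasing functions. -/
lemma tilt_le_odd (hμ : 0 ≤ μ) (hν : 0 ≤ ν) (hF : Good F) (hG : Good G)
    (hR : RatioLe μ ν F G) (hh : OdInc h) {x y : ℝ} (hx : 0 ≤ x) (hxy : x ≤ y) :
    tilt μ δ F h x ≤ tilt ν δ G h y := by
  rcases lt_or_ge 0 δ with hδ | hδ
  · rw [tilt_odd_eq hμ hδ hF hh.b1 hh.odd, tilt_odd_eq hν hδ hG hh.b1 hh.odd]
    set a := x / Real.sqrt δ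
    set b := y / Real.sqrt δ
    have ha : 0 ≤ a := div_nonneg hx (Real.sqrt_nonneg _)
    have hab : a ≤ b := div_le_div_of_nonneg_right hxy (Real.sqrt_nonneg _)
    have hb : ∀ c, B1 fun g => h (Real.sqrt δ * g) * Real.tanh (c * g) := fun c =>
      ⟨(hh.b1.meas.comp (measurable_const_mul _)).mul
        (continuous_tanh.measurable.comp (measurable_const_mul _)), fun g => by
        rw [abs_mul]
        exact mul_le_one₀ (hh.b1.bound _) (abs_nonneg _) (Real.abs_tanh_lt_one _).le⟩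
    have hs := Real.sqrt_nonneg δ
    have habs : ∀ c g : ℝ, h (Real.sqrt δ * g) * Real.tanh (c * g) =
        h (Real.sqrt δ * |g|) * Real.tanh (c * |g|) := fun c g => by
      rcases abs_choice g with e | e <;> rw [e]
      rw [mul_neg, mul_neg, hh.odd, Real.tanh_neg]; ring
    refine le_trans ?_ (cheb (integrable_symW hμ hF.lip a) (integrable_symW hν hG.lip b)
      (integrable_symW_mul hμ hF.lip (hb b) a) (integrable_symW_mul hν hG.lip (hb b) b)
      (integral_symW_pos hμ hF.lip a) (integral_symW_pos hν hG.lip b)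
      (fun u v huv => ?_) (symW_ratio ha hab hR))
    · refine div_le_div_of_nonneg_right (integral_mono (integrable_symW_mul hμ hF.lip (hb a) a)
        (integrable_symW_mul hμ hF.lip (hb b) a) fun g => ?_) (integral_symW_pos hμ hF.lip a).le
      refine mul_le_mul_of_nonneg_right ?_ (symW_pos μ δ F a g).le
      rw [habs a, habs b]
      exact mul_le_mul_of_nonneg_left (tanh_le_tanh (mul_le_mul_of_nonneg_right hab (abs_nonneg _)))
        (hh.nonneg _ (mul_nonneg hs (abs_nonneg _)))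
    · rw [habs b u, habs b v]
      exact mul_le_mul (hh.mono (Set.mem_Ici.2 (mul_nonneg hs (abs_nonneg _)))
          (Set.mem_Ici.2 (mul_nonneg hs (abs_nonneg _))) (mul_le_mul_of_nonneg_left huv hs))
        (tanh_le_tanh (mul_le_mul_of_nonneg_left huv (ha.trans hab)))
        (tanh_nonneg (mul_nonneg (ha.trans hab) (abs_nonneg _)))
        (hh.nonneg _ (mul_nonneg hs (abs_nonneg _)))
  · rw [tilt_of_nonpos hδ, tilt_of_nonpos hδ]
    exact hh.mono (Set.mem_Ici.2 hx) (Set.mem_Ici.2 (hx.trans hxy)) hxy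

lemma evInc_tilt (hm : 0 ≤ m) (hF : Good F) (hh : EvInc h) : EvInc (tilt m δ F h) :=
  ⟨b1_tilt hm hF.lip hh.b1, tilt_even_neg hm hF hh.b1 hh.even, fun x hx y hy hxy =>
    tilt_le_even hm hm hF hF (ratioLe_self m F) hh (by
      rw [abs_of_nonneg (Set.mem_Ici.1 hx), abs_of_nonneg (Set.mem_Ici.1 hy)]; exact hxy)⟩

lemma odInc_tilt (hm : 0 ≤ m) (hF : Good F) (hh : OdInc h) : OdInc (tilt m δ F h) := by
  have hodd := tilt_odd_neg (δ := δ) hm hF hh.b1 hh.odd
  have h0 : tilt m δ F h 0 = 0 := by have := hodd 0; rw [neg_zero] at this; linarith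
  exact ⟨b1_tilt hm hF.lip hh.b1, hodd, fun x hx y _ hxy =>
    tilt_le_odd hm hm hF hF (ratioLe_self m F) hh (Set.mem_Ici.1 hx) hxy, fun x hx =>
    h0 ▸ tilt_le_odd hm hm hF hF (ratioLe_self m F) hh le_rfl hx⟩

lemma good_layer (hm : 0 < m) (hF : Good F) : Good (layer m δ F) := by
  have hd : deriv (layer m δ F) = tilt m δ F (deriv F) := deriv_layer_lip hm hF.lip hF.diff hF.b1
  have ho : OdInc (tilt m δ F (deriv F)) := odInc_tilt hm.le hF hF.odInc
  refine ⟨fun x => ?_, fun x => (hasDerivAt_layer_lip hm hF.lip hF.diff hF.b1 x).differentiableAt,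
    hd ▸ ho.b1, hd ▸ ho.mono, hd ▸ ho.nonneg⟩
  rw [layer_eq_log, layer_eq_log]
  have hden : den m δ F (-x) = den m δ F x := by
    have e : ∀ g, Real.exp (m * F (-x + Real.sqrt δ * -g)) =
        Real.exp (m * F (x + Real.sqrt δ * g)) := fun g => by
      rw [show -x + Real.sqrt δ * -g = -(x + Real.sqrt δ * g) by ring, hF.even]
    have hmap : (gaussianReal 0 1).map (fun g => -g) = gaussianReal 0 1 := by
      rw [gaussianReal_map_neg, neg_zero]
    rw [den, den]
    conv_lhs => rw [← hmap]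
    rw [integral_map measurable_neg.aemeasurable (hmap.symm ▸ (integrable_den hm.le hF.lip (-x)).1)]
    exact integral_congr_ae (ae_of_all _ e)
  rw [hden]

end Vale.Agent.P157.Parisi.Full.Concave
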