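import Vale.Agent.P157.Full.Defs
import Vale.Agent.P157.Parisi.Site.Levels
import Vale.Agent.P157.Parisi.Upper.Convex

/-!
One step of the site recursion for functions of linear growth: integrability, bounds, derivatives.
-/

noncomputable section

open MeasureTheory ProbabilityTheory Filter Topology

namespace Vale.Agent.P157.Parisi.Full.Concave

open Up (Lip1)

/-- A measurable function bounded by one. -/
structure B1 (h : ℝ → ℝ) : Prop where
  meas : Measurable h
  bound : ∀ x, |h x| ≤ 1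

lemma B1.const_one : B1 fun _ => 1 := ⟨measurable_const, fun _ => by simp⟩

lemma B1.sq {h : ℝ → ℝ} (hh : B1 h) : B1 fun x => h x ^ 2 :=
  ⟨hh.meas.pow_const 2, fun x => by rw [abs_pow]; exact pow_le_one₀ (abs_nonneg _) (hh.bound x)⟩

variable {m δ : ℝ} {F h : ℝ → ℝ}

lemma exp_lip_le (hm : 0 ≤ m) (hF : Lip1 F) (y : ℝ) :
    Real.exp (m * F y) ≤ Real.exp (m * |F 0|) * Real.exp (m * |y|) := by
  rw [← Real.exp_add, ← mul_add]
  refine Real.exp_le_exp.2 (mul_le_mul_of_nonneg_left ?_ hm)
  have h := hF y 0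
  rw [sub_zero] at h
  linarith [le_abs_self (F 0)]

/-- The weight of a step, against a bounded function. -/
def wfun (m δ : ℝ) (F h : ℝ → ℝ) (x g : ℝ) : ℝ :=
  Real.exp (m * F (x + Real.sqrt δ * g)) * h (x + Real.sqrt δ * g)

lemma measurable_wfun (hF : Lip1 F) (hh : B1 h) :
    Measurable fun p : ℝ × ℝ => wfun m δ F h p.1 p.2 :=
  ((hF.continuous.measurable.comp (by fun_prop)).const_mul m).exp.mul (hh.meas.comp (by fun_prop))

lemma abs_wfun_le (hm : 0 ≤ m) (hF : Lip1 F) (hh : B1 h) (x g : ℝ) :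
    |wfun m δ F h x g| ≤
      Real.exp (m * |F 0|) * (Real.exp (m * |x|) * Real.exp (m * Real.sqrt δ * |g|)) := by
  rw [wfun, abs_mul, abs_of_pos (Real.exp_pos _)]
  refine (mul_le_of_le_one_right (Real.exp_pos _).le (hh.bound _)).trans
    ((exp_lip_le hm hF _).trans ?_)
  rw [← Real.exp_add (m * |x|)]
  refine mul_le_mul_of_nonneg_left (Real.exp_le_exp.2 ?_) (Real.exp_pos _).le
  have h := abs_add_le x (Real.sqrt δ * g)
  rw [abs_mul, abs_of_nonneg (Real.sqrt_nonneg δ)] at h
  linarith [mul_le_mul_of_nonneg_left h hm]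

lemma integrable_wfun (hm : 0 ≤ m) (hF : Lip1 F) (hh : B1 h) (x : ℝ) :
    Integrable (wfun m δ F h x) (gaussianReal 0 1) :=
  (((Site.integrable_exp_abs (m * Real.sqrt δ)).const_mul _).const_mul _).mono'
    ((measurable_wfun hF hh).comp measurable_prodMk_left).aestronglyMeasurable
    (ae_of_all _ fun g => by rw [Real.norm_eq_abs]; exact abs_wfun_le hm hF hh x g)

/-- The normalisation of a step. -/
def den (m δ : ℝ) (F : ℝ → ℝ) (x : ℝ) : ℝ :=
  ∫ g, Real.exp (m * F (x + Real.sqrt δ * g)) ∂gaussianReal 0 1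

lemma wfun_one (x g : ℝ) :
    wfun m δ F (fun _ => 1) x g = Real.exp (m * F (x + Real.sqrt δ * g)) := mul_one _

lemma integrable_den (hm : 0 ≤ m) (hF : Lip1 F) (x : ℝ) :
    Integrable (fun g => Real.exp (m * F (x + Real.sqrt δ * g))) (gaussianReal 0 1) :=
  (integrable_wfun (δ := δ) hm hF B1.const_one x).congr (ae_of_all _ fun g => wfun_one x g)

lemma den_pos (hm : 0 ≤ m) (hF : Lip1 F) (x : ℝ) : 0 < den m δ F x :=
  integral_exp_pos (integrable_den hm hF x)

lemma tilt_eq_div (x : ℝ) :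
    tilt m δ F h x = (∫ g, wfun m δ F h x g ∂gaussianReal 0 1) / den m δ F x := rfl

lemma layer_eq_log (x : ℝ) : layer m δ F x = 1 / m * Real.log (den m δ F x) := rfl

lemma exp_layer (hm : 0 < m) (hF : Lip1 F) (x : ℝ) :
    Real.exp (m * layer m δ F x) = den m δ F x := by
  rw [layer_eq_log, ← mul_assoc, mul_one_div_cancel hm.ne', one_mul,
    Real.exp_log (den_pos hm.le hF x)]

lemma measurable_tilt (hF : Lip1 F) (hh : B1 h) : Measurable (tilt m δ F h) := by
  have h1 := (measurable_wfun (m := m) (δ := δ) hF hh).stronglyMeasurable.integral_prod_right'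
    (ν := gaussianReal 0 1)
  have h2 := (measurable_wfun (m := m) (δ := δ) hF B1.const_one).stronglyMeasurable.integral_prod_right'
    (ν := gaussianReal 0 1)
  simp only [wfun_one] at h2
  exact h1.measurable.div h2.measurable

lemma b1_tilt (hm : 0 ≤ m) (hF : Lip1 F) (hh : B1 h) : B1 (tilt m δ F h) := by
  refine ⟨measurable_tilt hF hh, fun x => ?_⟩
  rw [tilt_eq_div, abs_div, abs_of_pos (den_pos hm hF x), div_le_one (den_pos hm hF x)]
  refine abs_integral_le_integral_abs.trans (integral_mono (integrable_wfun hm hF hh x).abs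
    (integrable_den hm hF x) fun g => ?_)
  show |wfun m δ F h x g| ≤ _
  rw [wfun, abs_mul, abs_of_pos (Real.exp_pos _)]
  exact mul_le_of_le_one_right (Real.exp_pos _).le (hh.bound _)

lemma tilt_mono_h {h' : ℝ → ℝ} (hm : 0 ≤ m) (hF : Lip1 F) (hh : B1 h) (hh' : B1 h')
    (hle : ∀ y, h y ≤ h' y) (x : ℝ) : tilt m δ F h x ≤ tilt m δ F h' x :=
  div_le_div_of_nonneg_right (integral_mono (integrable_wfun hm hF hh x)
    (integrable_wfun hm hF hh' x) fun _ =>
      mul_le_mul_of_nonneg_left (hle _) (Real.exp_pos _).le) (den_pos hm hF x).le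

lemma tilt_nonneg (hh : ∀ y, 0 ≤ h y) (x : ℝ) : 0 ≤ tilt m δ F h x :=
  div_nonneg (integral_nonneg fun _ => mul_nonneg (Real.exp_pos _).le (hh _))
    (integral_nonneg fun _ => (Real.exp_pos _).le)

/-- Jensen's inequality. -/
lemma sq_tilt_le_tilt_sq (hm : 0 ≤ m) (hF : Lip1 F) (hh : B1 h) (x : ℝ) :
    tilt m δ F h x ^ 2 ≤ tilt m δ F (fun y => h y ^ 2) x := by
  have hpos : 0 < den m δ F x := den_pos hm hF x
  set c := tilt m δ F h x with hc
  have hi1 := integrable_wfun (δ := δ) hm hF hh x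
  have hi2 := integrable_wfun (δ := δ) hm hF hh.sq x
  have hi0 := integrable_den (δ := δ) hm hF x
  have hnn : 0 ≤ ∫ g, Real.exp (m * F (x + Real.sqrt δ * g)) *
      (h (x + Real.sqrt δ * g) - c) ^ 2 ∂gaussianReal 0 1 :=
    integral_nonneg fun g => mul_nonneg (Real.exp_pos _).le (sq_nonneg _)
  have he : ∀ g, Real.exp (m * F (x + Real.sqrt δ * g)) * (h (x + Real.sqrt δ * g) - c) ^ 2 =
      wfun m δ F (fun y => h y ^ 2) x g - 2 * c * wfun m δ F h x g +
        c ^ 2 * Real.exp (m * F (x + Real.sqrt δ * g)) := fun g => by simp only [wfun]; ring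
  simp only [he] at hnn
  rw [integral_add (hi2.sub' (hi1.const_mul _)) (hi0.const_mul _),
    integral_sub hi2 (hi1.const_mul _), integral_const_mul, integral_const_mul] at hnn
  have h1 : ∫ g, wfun m δ F h x g ∂gaussianReal 0 1 = c * den m δ F x := by
    rw [hc, tilt_eq_div, div_mul_cancel₀ _ hpos.ne']
  rw [h1] at hnn
  change 0 ≤ _ + c ^ 2 * den m δ F x at hnn
  rw [tilt_eq_div (h := fun y => h y ^ 2), le_div_iff₀ hpos]
  nlinarith

lemma tilt_zero_delta (x : ℝ) : tilt m 0 F h x = h x := by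
  rw [tilt_eq_div]
  simp only [wfun, den, Real.sqrt_zero, zero_mul, add_zero, integral_const, probReal_univ,
    smul_eq_mul, one_mul]
  field_simp

lemma hasDerivAt_layer_lip (hm : 0 < m) (hF : Lip1 F) (hd : Differentiable ℝ F)
    (hb : B1 (deriv F)) (x : ℝ) :
    HasDerivAt (layer m δ F) (tilt m δ F (deriv F) x) x := by
  have hpos : 0 < den m δ F x := den_pos hm.le hF x
  obtain ⟨-, hI⟩ := hasDerivAt_integral_of_dominated_loc_of_deriv_le (μ := gaussianReal 0 1)
    (x₀ := x) (F := fun y g => Real.exp (m * F (y + Real.sqrt δ * g)))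
    (F' := fun y g => m * wfun m δ F (deriv F) y g)
    (bound := fun g => m * (Real.exp (m * |F 0|) *
      (Real.exp (m * (|x| + 1)) * Real.exp (m * Real.sqrt δ * |g|))))
    (Metric.ball_mem_nhds x one_pos)
    (Eventually.of_forall fun y => (integrable_den hm.le hF y).1)
    (integrable_den hm.le hF x)
    ((integrable_wfun hm.le hF hb x).const_mul m).1
    (Eventually.of_forall fun g y hy => by
      rw [Real.norm_eq_abs, abs_mul, abs_of_pos hm]
      refine mul_le_mul_of_nonneg_left ((abs_wfun_le hm.le hF hb y g).trans ?_) hm.le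
      refine mul_le_mul_of_nonneg_left (mul_le_mul_of_nonneg_right (Real.exp_le_exp.2
        (mul_le_mul_of_nonneg_left ?_ hm.le)) (Real.exp_pos _).le) (Real.exp_pos _).le
      rw [Metric.mem_ball, Real.dist_eq] at hy
      linarith [abs_sub_abs_le_abs_sub y x])
    (((((Site.integrable_exp_abs _).const_mul _).const_mul _).const_mul _))
    (Eventually.of_forall fun g y _ => by
      refine ((((hd _).hasDerivAt.comp_add_const y (Real.sqrt δ * g)).const_mul m).exp).congr_deriv ?_
      simp only [wfun]; ring)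
  rw [integral_const_mul] at hI
  refine ((hI.log hpos.ne').const_mul (1 / m)).congr_deriv ?_
  rw [tilt_eq_div, den]
  field_simp

lemma deriv_layer_lip (hm : 0 < m) (hF : Lip1 F) (hd : Differentiable ℝ F) (hb : B1 (deriv F)) :
    deriv (layer m δ F) = tilt m δ F (deriv F) :=
  funext fun x => (hasDerivAt_layer_lip hm hF hd hb x).deriv

lemma lip1_of_deriv (hd : Differentiable ℝ F) (hb : ∀ x, |deriv F x| ≤ 1) : Lip1 F := by
  have h := lipschitzWith_of_nnnorm_deriv_le hd (C := 1) fun x => by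
    rw [← NNReal.coe_le_coe, coe_nnnorm, NNReal.coe_one, Real.norm_eq_abs]; exact hb x
  intro x y
  have := h.dist_le_mul x y
  rw [NNReal.coe_one, one_mul, Real.dist_eq, Real.dist_eq] at this
  linarith [le_abs_self (F x - F y)]

end Vale.Agent.P157.Parisi.Full.Concave
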