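import Vale.Agent.P157.Full.Concave.Tilt
import Vale.Agent.P157.Parisi.ModA.Slope

/-!
The semigroup of steps, the order of potentials by their slopes on the half line, and the site
recursion inside the class of good potentials.
-/

noncomputable section

open MeasureTheory ProbabilityTheory Filter Topology

namespace Vale.Agent.P157.Parisi.Full.Concave

open Up (Lip1)

variable {m δ μ ν a b : ℝ} {F G h k : ℝ → ℝ}

lemma layer_zero (δ : ℝ) (F : ℝ → ℝ) : layer 0 δ F = fun _ => 0 := by
  funext x; simp [layer]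

lemma good_zero : Good fun _ : ℝ => (0 : ℝ) :=
  ⟨fun _ => rfl, differentiable_const 0, by simpa using B1.mk measurable_const fun _ => by simp,
    by simpa using monotoneOn_const, fun _ _ => by simp⟩

lemma good_layer' (hm : 0 ≤ m) (hF : Good F) : Good (layer m δ F) := by
  rcases hm.eq_or_lt with h | h
  · rw [← h, layer_zero]; exact good_zero
  · exact good_layer h hF

lemma exp_layer' (hm : 0 ≤ m) (hF : Lip1 F) (x : ℝ) :
    Real.exp (m * layer m δ F x) = den m δ F x := by
  rcases hm.eq_or_lt with h | h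
  · subst h; simp [den]
  · exact exp_layer h hF x

lemma num_add (hm : 0 ≤ m) (hm1 : m ≤ 1) (hF : Lip1 F) (hh : B1 h) (ha : 0 ≤ a) (hb : 0 ≤ b)
    (x : ℝ) : ∫ g, wfun m (a + b) F h x g ∂gaussianReal 0 1 =
      ∫ g, ∫ g', wfun m b F h (x + Real.sqrt a * g) g' ∂gaussianReal 0 1 ∂gaussianReal 0 1 := by
  set k := fun y => Real.exp (m * F y) * h y with hk
  have hkb : ∀ y, |k y| ≤ Real.exp (m * |F 0|) * Real.exp |y| := fun y => by
    rw [hk, abs_mul, Real.abs_exp]
    refine (mul_le_of_le_one_right (Real.exp_pos _).le (hh.bound _)).trans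
      ((exp_lip_le hm hF y).trans ?_)
    exact mul_le_mul_of_nonneg_left (Real.exp_le_exp.2 (mul_le_of_le_one_left (abs_nonneg y) hm1))
      (Real.exp_pos _).le
  exact ((Site.spread_spread ((hF.continuous.measurable.const_mul m).exp.mul hh.meas) hkb
    ha hb x).2).symm

lemma layer_add (hm : 0 ≤ m) (hm1 : m ≤ 1) (hF : Lip1 F) (ha : 0 ≤ a) (hb : 0 ≤ b) :
    layer m (a + b) F = layer m a (layer m b F) := by
  funext x
  have h := num_add (h := fun _ => 1) hm hm1 hF B1.const_one ha hb x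
  simp only [wfun_one] at h
  simp only [layer_eq_log, den] at *
  rw [h]
  congr 2
  refine integral_congr_ae (ae_of_all _ fun g => ?_)
  have := exp_layer' (δ := b) hm hF (x + Real.sqrt a * g)
  simp only [layer_eq_log, den] at this
  exact this.symm

lemma tilt_add (hm : 0 ≤ m) (hm1 : m ≤ 1) (hF : Lip1 F) (hh : B1 h) (ha : 0 ≤ a) (hb : 0 ≤ b)
    (x : ℝ) : tilt m (a + b) F h x = tilt m a (layer m b F) (tilt m b F h) x := by
  rw [tilt_eq_div, tilt_eq_div]
  congr 1
  · rw [num_add hm hm1 hF hh ha hb]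
    refine integral_congr_ae (ae_of_all _ fun g => ?_)
    show _ = Real.exp (m * layer m b F (x + Real.sqrt a * g)) * _
    rw [exp_layer' hm hF, tilt_eq_div, mul_div_cancel₀ _ (den_pos hm hF _).ne']
  · have h1 := num_add (h := fun _ => 1) hm hm1 hF B1.const_one ha hb x
    simp only [wfun_one] at h1
    rw [den, h1, den]
    exact integral_congr_ae (ae_of_all _ fun g => (exp_layer' hm hF _).symm)

/-- The slope of `F` is below that of `G` on the half line. -/
def Prec (F G : ℝ → ℝ) : Prop := ∀ x, 0 ≤ x → deriv F x ≤ deriv G x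

lemma Prec.refl (F : ℝ → ℝ) : Prec F F := fun _ _ => le_rfl

lemma ratioLe_of_prec (hν : μ ≤ ν) (hμ : 0 ≤ μ) (hF : Good F) (hG : Good G) (h : Prec F G) :
    RatioLe μ ν F G := by
  intro u v huv
  have hd : ∀ x, HasDerivAt (fun y => ν * G y - μ * F y) (ν * deriv G x - μ * deriv F x) x :=
    fun x => ((hG.diff x).hasDerivAt.const_mul ν).sub ((hF.diff x).hasDerivAt.const_mul μ)
  have hmono : MonotoneOn (fun y => ν * G y - μ * F y) (Set.Ici 0) := by
    refine monotoneOn_of_deriv_nonneg (convex_Ici 0)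
      (fun x _ => (hd x).continuousAt.continuousWithinAt)
      (fun x _ => (hd x).differentiableAt.differentiableWithinAt) fun x hx => ?_
    rw [interior_Ici, Set.mem_Ioi] at hx
    rw [(hd x).deriv, sub_nonneg]
    exact mul_le_mul hν (h x hx.le) (hF.nonneg x hx.le) (hμ.trans hν)
  have e : ∀ x, ν * G x - μ * F x = ν * G |x| - μ * F |x| := fun x => by rw [hG.abs, hF.abs]
  rw [e u, e v]
  exact hmono (Set.mem_Ici.2 (abs_nonneg _)) (Set.mem_Ici.2 (abs_nonneg _)) huv

lemma EvInc.le_of_le_nonneg (hh : EvInc h) (hk : EvInc k) (hle : ∀ x, 0 ≤ x → h x ≤ k x) (x : ℝ) :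
    h x ≤ k x := by
  rcases le_total 0 x with hx | hx
  · exact hle x hx
  · rw [← hh.even, ← hk.even]; exact hle _ (neg_nonneg.2 hx)

/-- Smaller exponent, potential and function: smaller tilt. -/
lemma tilt_le_comp (hμν : μ ≤ ν) (hμ : 0 ≤ μ) (hF : Good F) (hG : Good G) (hFG : Prec F G)
    (hh : EvInc h) (hk : B1 k) (hle : ∀ x, h x ≤ k x) (x : ℝ) :
    tilt μ δ F h x ≤ tilt ν δ G k x :=
  (tilt_le_even hμ (hμ.trans hμν) hF hG (ratioLe_of_prec hμν hμ hF hG hFG) hh le_rfl).trans
    (tilt_mono_h (hμ.trans hμν) hG.lip hh.b1 hk hle x)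

lemma tilt_mono_odd (hm : 0 ≤ m) (hG : Good G) (hh : OdInc h) (hk : OdInc k)
    (hle : ∀ x, 0 ≤ x → h x ≤ k x) {x : ℝ} (hx : 0 ≤ x) : tilt m δ G h x ≤ tilt m δ G k x := by
  rcases lt_or_ge 0 δ with hδ | hδ
  · rw [tilt_odd_eq hm hδ hG hh.b1 hh.odd, tilt_odd_eq hm hδ hG hk.b1 hk.odd]
    have hb : ∀ {h : ℝ → ℝ}, OdInc h →
        B1 fun g => h (Real.sqrt δ * g) * Real.tanh (x / Real.sqrt δ * g) := fun hh =>
      ⟨(hh.b1.meas.comp (measurable_const_mul _)).mul
        (continuous_tanh.measurable.comp (measurable_const_mul _)), fun g => by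
        rw [abs_mul]
        exact mul_le_one₀ (hh.b1.bound _) (abs_nonneg _) (Real.abs_tanh_lt_one _).le⟩
    refine div_le_div_of_nonneg_right (integral_mono (integrable_symW_mul hm hG.lip (hb hh) _)
      (integrable_symW_mul hm hG.lip (hb hk) _) fun g => ?_) (integral_symW_pos hm hG.lip _).le
    refine mul_le_mul_of_nonneg_right ?_ (symW_pos m δ G _ g).le
    have hs := Real.sqrt_nonneg δ
    have ha : 0 ≤ x / Real.sqrt δ := div_nonneg hx hs
    rcases le_total 0 g with hg | hg
    · exact mul_le_mul_of_nonneg_right (hle _ (mul_nonneg hs hg)) (tanh_nonneg (mul_nonneg ha hg))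
    · have e : ∀ {h : ℝ → ℝ}, OdInc h → h (Real.sqrt δ * g) * Real.tanh (x / Real.sqrt δ * g) =
          h (Real.sqrt δ * -g) * Real.tanh (x / Real.sqrt δ * -g) := fun hh => by
        rw [mul_neg, mul_neg, hh.odd, Real.tanh_neg]; ring
      rw [e hh, e hk]
      exact mul_le_mul_of_nonneg_right (hle _ (mul_nonneg hs (neg_nonneg.2 hg)))
        (tanh_nonneg (mul_nonneg ha (neg_nonneg.2 hg)))
  · rw [tilt_of_nonpos hδ, tilt_of_nonpos hδ]; exact hle x hx

lemma prec_layer (hμν : μ ≤ ν) (hμ : 0 ≤ μ) (hF : Good F) (hG : Good G) (hFG : Prec F G) :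
    Prec (layer μ δ F) (layer ν δ G) := by
  intro x hx
  rcases hμ.eq_or_lt with h0 | h0
  · rw [← h0, layer_zero]
    simpa using (good_layer' (δ := δ) (hμ.trans hμν) hG).nonneg x hx
  · rw [deriv_layer_lip h0 hF.lip hF.diff hF.b1,
      deriv_layer_lip (h0.trans_le hμν) hG.lip hG.diff hG.b1]
    exact (tilt_le_odd hμ (hμ.trans hμν) hF hG (ratioLe_of_prec hμν hμ hF hG hFG) hF.odInc hx
      le_rfl).trans (tilt_mono_odd (hμ.trans hμν) hG hF.odInc hG.odInc hFG hx)

/-! ### The terminal function -/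

lemma hasDerivAt_logCosh (x : ℝ) : HasDerivAt logCosh (Real.tanh x) x := by
  refine ((Real.hasDerivAt_cosh x).log (Real.cosh_pos x).ne').congr_deriv ?_
  rw [Real.tanh_eq_sinh_div_cosh]

lemma deriv_logCosh : deriv logCosh = Real.tanh := funext fun x => (hasDerivAt_logCosh x).deriv

lemma good_logCosh : Good logCosh := by
  refine ⟨fun x => by simp [logCosh, Real.cosh_neg], fun x => (hasDerivAt_logCosh x).differentiableAt,
    ?_, ?_, ?_⟩ <;> rw [deriv_logCosh]
  · exact ⟨continuous_tanh.measurable, fun x => (Real.abs_tanh_lt_one x).le⟩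
  · exact fun _ _ _ _ h => tanh_le_tanh h
  · exact fun _ hx => tanh_nonneg hx

/-- With exponent one the magnetisation is a martingale. -/
lemma tilt_logCosh (δ x : ℝ) : tilt 1 δ logCosh Real.tanh x = Real.tanh x := by
  set s := Real.sqrt δ
  have hn : ∀ g, wfun 1 δ logCosh Real.tanh x g = Real.sinh (x + s * g) := fun g => by
    have := (Real.cosh_pos (x + s * g)).ne'
    simp only [wfun, logCosh, one_mul, Real.exp_log (Real.cosh_pos _), Real.tanh_eq_sinh_div_cosh, s]
    field_simp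
  have hmgf : ∀ t, ∫ g, Real.exp (t * g) ∂gaussianReal 0 1 = Real.exp (t ^ 2 / 2) := fun t => by
    have h := congrFun (mgf_id_gaussianReal (μ := 0) (v := 1)) t
    simp only [mgf, id, zero_mul, zero_add, NNReal.coe_one, one_mul] at h
    exact h
  have hi := integrable_exp_mul_gaussianReal (μ := 0) (v := 1)
  have e1 : ∀ g, Real.exp (x + s * g) = Real.exp x * Real.exp (s * g) := fun g => Real.exp_add _ _
  have e2 : ∀ g, Real.exp (-(x + s * g)) = Real.exp (-x) * Real.exp (-s * g) := fun g => by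
    rw [neg_add, Real.exp_add, neg_mul]
  have hs : ∫ g, Real.sinh (x + s * g) ∂gaussianReal 0 1 = Real.sinh x * Real.exp (s ^ 2 / 2) := by
    simp only [Real.sinh_eq, e1, e2]
    rw [integral_div, integral_sub ((hi s).const_mul _) ((hi (-s)).const_mul _), integral_const_mul,
      integral_const_mul, hmgf, hmgf, neg_sq]
    ring
  have hc : den 1 δ logCosh x = Real.cosh x * Real.exp (s ^ 2 / 2) := by
    simp only [den, logCosh, one_mul, Real.exp_log (Real.cosh_pos _)]
    change ∫ g, Real.cosh (x + s * g) ∂gaussianReal 0 1 = _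
    simp only [Real.cosh_eq, e1, e2]
    rw [integral_div, integral_add ((hi s).const_mul _) ((hi (-s)).const_mul _), integral_const_mul,
      integral_const_mul, hmgf, hmgf, neg_sq]
    ring
  rw [tilt_eq_div, hc]
  simp only [hn]
  rw [hs, mul_div_mul_right _ _ (Real.exp_pos _).ne', Real.tanh_eq_sinh_div_cosh]

lemma prec_layer_logCosh (hμ : 0 ≤ μ) (hμ1 : μ ≤ 1) (e : ℝ) : Prec (layer μ e logCosh) logCosh := by
  intro x hx
  refine (prec_layer hμ1 hμ good_logCosh good_logCosh (Prec.refl _) x hx).trans (le_of_eq ?_)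
  rw [deriv_layer_lip one_pos good_logCosh.lip good_logCosh.diff good_logCosh.b1, deriv_logCosh,
    tilt_logCosh]

/-! ### The recursion -/

lemma good_level : ∀ {r : ℕ} {m : Fin r → ℝ}, (∀ i, 0 < m i) → ∀ (ρ : Fin (r + 1) → ℝ)
    (p : Fin (r + 1)), Good (level m ρ logCosh p) := by
  intro r
  induction r with
  | zero => exact fun _ _ _ => good_logCosh
  | succ r ih =>
    intro m hm ρ p
    cases p using Fin.cases with
    | zero => exact good_layer (hm 0) (ih (fun i => hm i.succ) _ 0)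
    | succ p => exact ih (fun i => hm i.succ) _ p

lemma evInc_down : ∀ {r : ℕ} {m : Fin r → ℝ}, (∀ i, 0 < m i) → ∀ (ρ : Fin (r + 1) → ℝ)
    (p : Fin (r + 1)) {h : ℝ → ℝ}, EvInc h → EvInc (down m ρ logCosh p h) := by
  intro r
  induction r with
  | zero => exact fun _ _ _ _ hh => hh
  | succ r ih =>
    intro m hm ρ p h hh
    cases p using Fin.cases with
    | zero => exact hh
    | succ p =>
      exact evInc_tilt (hm 0).le (good_level (fun i => hm i.succ) _ 0)
        (ih (fun i => hm i.succ) _ p hh)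

lemma down_mono_b1 : ∀ {r : ℕ} {m : Fin r → ℝ}, (∀ i, 0 < m i) → ∀ (ρ : Fin (r + 1) → ℝ)
    (p : Fin (r + 1)) {h h' : ℝ → ℝ}, B1 h → B1 h' → (∀ x, h x ≤ h' x) →
      B1 (down m ρ logCosh p h) ∧ B1 (down m ρ logCosh p h') ∧
        ∀ x, down m ρ logCosh p h x ≤ down m ρ logCosh p h' x := by
  intro r
  induction r with
  | zero => exact fun _ _ _ _ _ hh hh' hle => ⟨hh, hh', hle⟩
  | succ r ih =>
    intro m hm ρ p h h' hh hh' hle
    cases p using Fin.cases with
    | zero => exact ⟨hh, hh', hle⟩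
    | succ p =>
      obtain ⟨b1, b1', hd⟩ := ih (fun i => hm i.succ) (Fin.tail ρ) p hh hh' hle
      have hG := (good_level (fun i => hm i.succ) (Fin.tail ρ) 0).lip
      exact ⟨b1_tilt (hm 0).le hG b1, b1_tilt (hm 0).le hG b1',
        tilt_mono_h (hm 0).le hG b1 b1' hd⟩

/-- The squared magnetisation at depth `p`. -/
def magSq {r : ℕ} (m : Fin r → ℝ) (ρ : Fin (r + 1) → ℝ) (p : Fin (r + 1)) : ℝ → ℝ :=
  fun x => deriv (level m ρ logCosh p) x ^ 2

lemma evInc_magSq {r : ℕ} {m : Fin r → ℝ} (hm : ∀ i, 0 < m i) (ρ : Fin (r + 1) → ℝ)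
    (p : Fin (r + 1)) : EvInc (magSq m ρ p) := (good_level hm ρ p).odInc.sq

lemma siteSlope_eq_tilt {r : ℕ} (m : Fin r → ℝ) (ρ : Fin (r + 1) → ℝ) (p : Fin (r + 1))
    (F : ℝ → ℝ) : siteSlope m ρ p = tilt 0 (ρ 0) F (down m ρ logCosh p (magSq m ρ p)) 0 := by
  simp only [siteSlope, tilt, zero_mul, Real.exp_zero, one_mul, zero_add, integral_const,
    probReal_univ, smul_eq_mul, mul_one, div_one]
  rfl

end Vale.Agent.P157.Parisi.Full.Concave
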